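import Mathlib

/-!
# A minimal projection of a commutant has a scalar corner

Block [SPEC] of PROJECT FI (helper862).  `D` is the commutant of a star closed set `S` of operators of a
Hilbert space, `e` a minimal projection of `D`; then `e D e = ℂ e`.
-/

namespace H789.FI

open scoped InnerProductSpace ComplexOrder
open CFC

variable {K : Type*} [NormedAddCommGroup K] [InnerProductSpace ℂ K] [CompleteSpace K]

/-- The projection onto the closure of the range. -/
noncomputable def rp (y : K →L[ℂ] K) : K →L[ℂ] K :=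
  (LinearMap.range (y : K →ₗ[ℂ] K)).topologicalClosure.starProjection

theorem rp_proj (y : K →L[ℂ] K) : IsStarProjection (rp y) := by
  unfold rp
  exact isStarProjection_starProjection

theorem rp_mem (y : K →L[ℂ] K) (v : K) :
    rp y v ∈ (LinearMap.range (y : K →ₗ[ℂ] K)).topologicalClosure :=
  Submodule.starProjection_apply_mem _ _

theorem rp_of_mem (y : K →L[ℂ] K) {v : K}
    (hv : v ∈ (LinearMap.range (y : K →ₗ[ℂ] K)).topologicalClosure) : rp y v = v :=
  (Submodule.starProjection_eq_self_iff).2 hv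

omit [CompleteSpace K] in
theorem mem_clos (y : K →L[ℂ] K) (v : K) :
    y v ∈ (LinearMap.range (y : K →ₗ[ℂ] K)).topologicalClosure :=
  Submodule.le_topologicalClosure _ ⟨v, rfl⟩

theorem rp_mul (y : K →L[ℂ] K) : rp y * y = y := by
  ext v
  exact rp_of_mem y (mem_clos y v)

omit [CompleteSpace K] in
/-- A closed condition which holds on the range holds on the closure of the range. -/
theorem clos_of {y a b : K →L[ℂ] K} (h : a * y = b * y) {v : K}
    (hv : v ∈ (LinearMap.range (y : K →ₗ[ℂ] K)).topologicalClosure) : a v = b v := by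
  have hc : IsClosed {w : K | a w = b w} := isClosed_eq a.continuous b.continuous
  have hsub : (LinearMap.range (y : K →ₗ[ℂ] K) : Set K) ⊆ {w : K | a w = b w} := by
    rintro _ ⟨u, rfl⟩
    have := DFunLike.congr_fun h u
    exact this
  exact closure_minimal hsub hc hv

theorem mul_rp_of {y a b : K →L[ℂ] K} (h : a * y = b * y) : a * rp y = b * rp y := by
  ext v
  exact clos_of h (rp_mem y v)

theorem rp_mul_of {y e : K →L[ℂ] K} (h : e * y = y) : e * rp y = rp y := by
  have := mul_rp_of (y := y) (a := e) (b := 1) (by rw [h, one_mul])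
  rwa [one_mul] at this

theorem rp_zero_of {y z : K →L[ℂ] K} (h : z * y = 0) : z * rp y = 0 := by
  have := mul_rp_of (y := y) (a := z) (b := 0) (by rw [h, zero_mul])
  rwa [zero_mul] at this

/-- If `s y = y s` then the closed range of `y` is invariant under `s`: `P s P = s P`. -/
theorem rp_conj {y s : K →L[ℂ] K} (h : Commute s y) : rp y * (s * rp y) = s * rp y := by
  have h1 : rp y * s * y = s * y := by
    have : s * y = y * s := h.eq
    rw [mul_assoc, this, ← mul_assoc, rp_mul]
  have := mul_rp_of h1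
  rwa [mul_assoc] at this

theorem rp_commute {y s : K →L[ℂ] K} (h : Commute s y) (h' : Commute (star s) y) :
    Commute s (rp y) := by
  have h1 := rp_conj h
  have h2 := rp_conj h'
  have h3 := congrArg star h2
  have hs : star (rp y) = rp y := (rp_proj y).isSelfAdjoint
  rw [star_mul, star_mul, star_star, hs] at h3
  -- h3 : rp y * s * rp y = rp y * s
  have : s * rp y = rp y * s := by
    rw [← h1, ← mul_assoc, h3]
  exact this

theorem rp_eq_zero {y : K →L[ℂ] K} (h : rp y = 0) : y = 0 := by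
  have := rp_mul y
  rw [h, zero_mul] at this
  exact this.symm

/-- The positive part of a selfadjoint element of the corner `e D` lies in it. -/
theorem pos_corner {a e : K →L[ℂ] K} (ha : IsSelfAdjoint a) (hea : e * a = a) :
    e * a⁺ = a⁺ := by
  have hp : IsSelfAdjoint (a⁺) := (CFC.posPart_nonneg a).isSelfAdjoint
  have hsq : a * a⁺ = a⁺ * a⁺ := by
    have h0 : a⁻ * a⁺ = 0 := CFC.negPart_mul_posPart a
    have h5 : a⁺ - a⁻ = a := CFC.posPart_sub_negPart a ha
    calc a * a⁺ = (a⁺ - a⁻) * a⁺ := by rw [h5]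
      _ = a⁺ * a⁺ := by rw [sub_mul, h0, sub_zero]
  have h1 : (1 - e) * (a⁺ * a⁺) = 0 := by
    rw [← hsq, ← mul_assoc, sub_mul, one_mul, hea, sub_self, zero_mul]
  have h2 : ((1 - e) * a⁺) * star ((1 - e) * a⁺) = 0 := by
    rw [star_mul, hp.star_eq, mul_assoc, ← mul_assoc a⁺, ← mul_assoc, h1, zero_mul]
  have h3 : (1 - e) * a⁺ = 0 := (CStarRing.mul_star_self_eq_zero_iff _).1 h2
  rw [sub_mul, one_mul] at h3
  exact (sub_eq_zero.1 h3).symm

theorem neg_corner {a e : K →L[ℂ] K} (ha : IsSelfAdjoint a) (hea : e * a = a) :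
    e * a⁻ = a⁻ := by
  have h1 := pos_corner ha hea
  have h2 : a⁻ = a⁺ - a := by
    have h5 : a⁺ - a⁻ = a := CFC.posPart_sub_negPart a ha
    exact eq_sub_iff_add_eq'.2 (sub_eq_iff_eq_add.1 h5).symm
  rw [h2, mul_sub, h1, hea]

/-- The alternative: in the corner of a minimal projection every selfadjoint element has a sign. -/
theorem sign_alt {S : Set (K →L[ℂ] K)} (hS : ∀ s ∈ S, star s ∈ S) {e : K →L[ℂ] K}
    (hmin : ∀ f : K →L[ℂ] K, IsStarProjection f → (∀ s ∈ S, Commute s f) → e * f = f →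
      f = 0 ∨ f = e)
    {a : K →L[ℂ] K} (ha : IsSelfAdjoint a) (haD : ∀ s ∈ S, Commute s a) (hea : e * a = a) :
    0 ≤ a ∨ a ≤ 0 := by
  have hpD : ∀ s ∈ S, Commute s (a⁺) := fun s hs => by
    rw [CFC.posPart_def]
    exact ((haD s hs).symm.cfcₙ_real _).symm
  have hnD : ∀ s ∈ S, Commute s (a⁻) := fun s hs => by
    rw [CFC.negPart_def]
    exact ((haD s hs).symm.cfcₙ_real _).symm
  have hP : ∀ s ∈ S, Commute s (rp (a⁺)) := fun s hs => rp_commute (hpD s hs) (hpD _ (hS s hs))
  have hN : ∀ s ∈ S, Commute s (rp (a⁻)) := fun s hs => rp_commute (hnD s hs) (hnD _ (hS s hs))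
  have h0 : a⁻ * a⁺ = 0 := CFC.negPart_mul_posPart a
  have h1 : a⁻ * rp (a⁺) = 0 := rp_zero_of h0
  have hns : IsSelfAdjoint (a⁻) := (CFC.negPart_nonneg a).isSelfAdjoint
  have hPs : star (rp (a⁺)) = rp (a⁺) := (rp_proj _).isSelfAdjoint
  have h2 : rp (a⁺) * a⁻ = 0 := by
    have := congrArg star h1
    rwa [star_mul, star_zero, hPs, hns.star_eq] at this
  have h3 : rp (a⁺) * rp (a⁻) = 0 := rp_zero_of h2
  rcases hmin _ (rp_proj _) hP (rp_mul_of (pos_corner ha hea)) with hc | hc
  · right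
    have hz := rp_eq_zero hc
    have := CFC.posPart_sub_negPart a ha
    rw [hz, zero_sub] at this
    rw [← this]
    exact neg_nonpos.2 (CFC.negPart_nonneg a)
  · left
    rw [hc, rp_mul_of (neg_corner ha hea)] at h3
    have hz := rp_eq_zero h3
    have := CFC.posPart_sub_negPart a ha
    rw [hz, sub_zero] at this
    rw [← this]
    exact CFC.posPart_nonneg a

/-- The selfadjoint case. -/
theorem spec_sa {S : Set (K →L[ℂ] K)} (hS : ∀ s ∈ S, star s ∈ S) {e : K →L[ℂ] K}
    (he : IsStarProjection e) (heD : ∀ s ∈ S, Commute s e)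
    (hmin : ∀ f : K →L[ℂ] K, IsStarProjection f → (∀ s ∈ S, Commute s f) → e * f = f →
      f = 0 ∨ f = e)
    {x : K →L[ℂ] K} (hx : IsSelfAdjoint x) (hxD : ∀ s ∈ S, Commute s x) (hex : e * x = x) :
    ∃ r : ℝ, x = (r : ℂ) • e := by
  by_cases he0 : e = 0
  · refine ⟨0, ?_⟩
    rw [← hex, he0]; simp
  obtain ⟨u, hu⟩ : ∃ u : K, e u ≠ 0 := by
    by_contra hcon
    push Not at hcon
    exact he0 (by ext u; simpa using hcon u)
  set v : K := e u with hv
  have hev : e v = v := by
    have := DFunLike.congr_fun he.isIdempotentElem.eq u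
    exact this
  have hvn : 0 < ‖v‖ ^ 2 := by positivity
  have hes : IsSelfAdjoint e := he.isSelfAdjoint
  set r : ℝ := (⟪x v, v⟫_ℂ).re / ‖v‖ ^ 2 with hr
  have hee : e * e = e := he.isIdempotentElem.eq
  -- the sign of `x - l e`
  have halt : ∀ l : ℝ, 0 ≤ x - (l : ℂ) • e ∨ x - (l : ℂ) • e ≤ 0 := fun l => by
    refine sign_alt hS hmin ?_ ?_ ?_
    · refine hx.sub ?_
      rw [isSelfAdjoint_iff, star_smul, hes.star_eq]
      simp
    · intro s hs
      exact (hxD s hs).sub_right ((heD s hs).smul_right _)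
    · rw [mul_sub, hex, mul_smul_comm, hee]
  have hq : ∀ (T : K →L[ℂ] K) (w : K), 0 ≤ T → 0 ≤ (⟪T w, w⟫_ℂ).re := fun T w hT => by
    have := ((ContinuousLinearMap.nonneg_iff_isPositive T).1 hT).2 w
    simpa [ContinuousLinearMap.reApplyInnerSelf] using this
  have hval : ∀ (l : ℝ) (w : K), (⟪(x - (l : ℂ) • e) w, w⟫_ℂ).re
      = (⟪x w, w⟫_ℂ).re - l * (⟪e w, w⟫_ℂ).re := fun l w => by
    simp [inner_sub_left, inner_smul_left]
  have hevv : (⟪e v, v⟫_ℂ).re = ‖v‖ ^ 2 := by
    rw [hev, inner_self_eq_norm_sq_to_K]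
    norm_cast
  have hxvv : (⟪x v, v⟫_ℂ).re = r * ‖v‖ ^ 2 := by
    rw [hr]; field_simp
  have hlow : ∀ l : ℝ, l < r → 0 ≤ x - (l : ℂ) • e := fun l hl => by
    rcases halt l with h | h
    · exact h
    · exfalso
      have h1 := hq (-(x - (l : ℂ) • e)) v (neg_nonneg.2 h)
      have h2 := hval l v
      rw [neg_apply, inner_neg_left, Complex.neg_re, h2, hevv, hxvv] at h1
      nlinarith
  have hupp : ∀ l : ℝ, r < l → x - (l : ℂ) • e ≤ 0 := fun l hl => by
    rcases halt l with h | h
    · exfalso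
      have h1 := hq (x - (l : ℂ) • e) v h
      have h2 := hval l v
      rw [h2, hevv, hxvv] at h1
      nlinarith
    · exact h
  refine ⟨r, ?_⟩
  have hform : ∀ w : K, (⟪(x - (r : ℂ) • e) w, w⟫_ℂ).re = 0 := fun w => by
    rw [hval r w]
    have he_nonneg : 0 ≤ (⟪e w, w⟫_ℂ).re := hq e w he.nonneg
    refine le_antisymm ?_ ?_
    · refine le_of_forall_pos_le_add fun ε hε => ?_
      have hd : 0 < (⟪e w, w⟫_ℂ).re + 1 := by linarith
      have h1 := hupp (r + ε / ((⟪e w, w⟫_ℂ).re + 1)) (by linarith [div_pos hε hd])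
      have h2 := hq _ w (neg_nonneg.2 h1)
      rw [neg_apply, inner_neg_left, Complex.neg_re, hval] at h2
      have h3 : ε / ((⟪e w, w⟫_ℂ).re + 1) * (⟪e w, w⟫_ℂ).re ≤ ε := by
        rw [div_mul_eq_mul_div, div_le_iff₀ hd]; nlinarith
      nlinarith
    · refine le_of_forall_pos_le_add fun ε hε => ?_
      have hd : 0 < (⟪e w, w⟫_ℂ).re + 1 := by linarith
      have h1 := hlow (r - ε / ((⟪e w, w⟫_ℂ).re + 1)) (by linarith [div_pos hε hd])
      have h2 := hq _ w h1
      rw [hval] at h2
      have h3 : ε / ((⟪e w, w⟫_ℂ).re + 1) * (⟪e w, w⟫_ℂ).re ≤ ε := by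
        rw [div_mul_eq_mul_div, div_le_iff₀ hd]; nlinarith
      nlinarith
  have hTs : IsSelfAdjoint (x - (r : ℂ) • e) := by
    refine hx.sub ?_
    rw [isSelfAdjoint_iff, star_smul, hes.star_eq]
    simp
  have hzero : ((x - (r : ℂ) • e : K →L[ℂ] K) : K →ₗ[ℂ] K) = 0 := by
    refine (inner_map_self_eq_zero _).1 fun w => ?_
    have him : (⟪(x - (r : ℂ) • e) w, w⟫_ℂ).im = 0 := by
      have hsym := (ContinuousLinearMap.isSelfAdjoint_iff_isSymmetric.1 hTs)
      have := hsym.coe_reApplyInnerSelf_apply w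
      rw [← this]
      simp
    exact Complex.ext (hform w) him
  have hzero' : x - (r : ℂ) • e = 0 := by
    ext w
    have := DFunLike.congr_fun hzero w
    simpa using this
  exact sub_eq_zero.1 hzero'

/-- The general case: `e D e = ℂ e` for a minimal projection `e` of the commutant `D` of `S`. -/
theorem spec_core {S : Set (K →L[ℂ] K)} (hS : ∀ s ∈ S, star s ∈ S) {e : K →L[ℂ] K}
    (he : IsStarProjection e) (heD : ∀ s ∈ S, Commute s e)
    (hmin : ∀ f : K →L[ℂ] K, IsStarProjection f → (∀ s ∈ S, Commute s f) → e * f = f →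
      f = 0 ∨ f = e)
    {x : K →L[ℂ] K} (hxD : ∀ s ∈ S, Commute s x) (hex : e * x = x) (hxe : x * e = x) :
    ∃ c : ℂ, x = c • e := by
  have hes : star e = e := he.isSelfAdjoint
  have hxs : ∀ s ∈ S, Commute s (star x) := fun s hs => by
    have := (hxD _ (hS s hs)).star_star
    rwa [star_star] at this
  have hexs : e * star x = star x := by
    have := congrArg star hxe
    rwa [star_mul, hes] at this
  obtain ⟨r, hr⟩ := spec_sa hS he heD hmin (x := x + star x) (IsSelfAdjoint.add_star_self x)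
    (fun s hs => (hxD s hs).add_right (hxs s hs)) (by rw [mul_add, hex, hexs])
  obtain ⟨t, ht⟩ := spec_sa hS he heD hmin (x := Complex.I • (x - star x))
    (by
      rw [isSelfAdjoint_iff, star_smul, star_sub, star_star]
      simp [← smul_neg])
    (fun s hs => ((hxD s hs).sub_right (hxs s hs)).smul_right _)
    (by rw [mul_smul_comm, mul_sub, hex, hexs])
  refine ⟨(1 / 2 : ℂ) * ((r : ℂ) - Complex.I * t), ?_⟩
  have h2 : x - star x = (-Complex.I) • ((t : ℂ) • e) := by
    rw [← ht, smul_smul]; simp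
  have h3 : (2 : ℂ) • x = (x + star x) + (x - star x) := by
    rw [two_smul]; abel
  have h4 : x = (1 / 2 : ℂ) • ((2 : ℂ) • x) := by
    rw [smul_smul]; norm_num
  rw [h4, h3, hr, h2]
  simp only [smul_add, smul_smul]
  rw [← add_smul]
  congr 1
  ring

end H789.FI

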